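import Vale.Agent.P130.Chirp
import Vale.Agent.P130.Term
import Vale.Agent.P130.Loads
import Vale.Agent.P130.Energy
import Vale.Agent.P130.Proj
import Vale.Agent.P130.Types
import Vale.Agent.P130.Arc
import Vale.Agent.P130.Tile
import Vale.Agent.P130.Key
import Vale.Agent.P130.Seq
import Vale.Agent.P130.Limit
import Vale.Agent.P130.Meas
import Vale.Agent.P130.Gram
import Vale.Agent.P130.Final

open MeasureTheory

namespace Vale.Agent.Results.P130.SimpleLebesgue

open Vale.Agent.P130 in
/-- Some invertible measure-preserving transformation T of a standard nonatomic probability space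
has simple Lebesgue spectrum: there is a function f 0 in L^2 whose iterates f n = f 0 ∘ T^n,
n ∈ ℤ, form an orthonormal basis of the mean-zero subspace of L^2. -/
theorem result :
    ∃ (X : Type) (_ : MeasurableSpace X) (_ : StandardBorelSpace X) (μ : Measure X)
      (_ : IsProbabilityMeasure μ) (_ : NoAtoms μ) (T : X ≃ᵐ X) (_ : MeasurePreserving T μ μ)
      (f : ℤ → Lp ℂ 2 μ),
      (∀ n : ℤ, f n =ᵐ[μ] f 0 ∘ (T.toEquiv ^ n : Equiv.Perm X)) ∧ Orthonormal ℂ f ∧
        ∀ g : Lp ℂ 2 μ,
          g ∈ (Submodule.span ℂ (Set.range f)).topologicalClosure ↔ ∫ x, g x ∂μ = 0 :=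
  final (seq_prop (key_prop (tile_prop loads_prop alloc_prop (arc_prop types_prop))
    (mode_prop proj_prop) (term_prop chirp_prop))) limit_prop measure_prop gram_prop dense_prop

end Vale.Agent.Results.P130.SimpleLebesgue
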